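import Vale.Agent.Lib.P328.Bit.Main

/-!
# A fully polynomial randomized approximation scheme for contingency tables, all margins, bit model

The machine is in `Vale/Agent/Lib/P328/Bit/Lang.lean`: `Val` (integers, empty list, pairs), `Prog` (a small
language: composition, pairing, projections, `add sub mul div` on integers saturating at `S ^ 6` bits, a test for a
positive number, a `loop` of exactly `S` rounds, and a fair coin), `sem` (the law of the output), `time` (the number of steps,
for all inputs and all coins: an addition costs the word length `S ^ 6 + 1`, a multiplication or division its square).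

There is one program `p` and one exponent `e`. For all margins and all positive integers `a`, `b`, with
`L` the input length (rows, columns, bits of the margins, `a`, bits of `b`) and `S = L ^ 100`: `p` runs at most
`L ^ e` steps, and with probability at least `1 - 1 / b` its output is an integer in `(1 ± 1 / a) * |tabs r c|`.
The program does not depend on anything; it reads `a`, `b` only through `S`.
-/

open Finset Vale.Agent.Lib.P328.Cap Vale.Agent.Lib.P328.Bit

theorem Vale.Agent.Results.P328.AAAA_bit.aux {p : Prog}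
    (hp : ∀ (S : ℕ) (x : List ℤ × List ℤ), sem p S (enc x) = (mainF S x).map enc)
    {m n : ℕ} (r : Fin m → ℕ) (c : Fin n → ℕ) (a b S : ℕ) (hm : 0 < m) (hn : 0 < n)
    (hsum : ∑ i, r i = ∑ j, c j) (ha : 0 < a) (hb : 0 < b) (hS : S = sizeL r c a b ^ 100) :
    ENNReal.ofReal (1 - 1 / (b : ℝ)) ≤
        (sem p S (.pair (encList (List.ofFn fun i => (r i : ℤ)))
          (encList (List.ofFn fun j => (c j : ℤ))))).toOuterMeasure
          {v | ∃ y : ℤ, v = .num y ∧
            (1 - 1 / (a : ℝ)) * ((tabs r c).card : ℝ) ≤ y ∧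
            (y : ℝ) ≤ (1 + 1 / (a : ℝ)) * ((tabs r c).card : ℝ)} := by
  have h := mainF_spec hm hn r c hsum ha hb
  rw [← hS] at h
  have hx : sem p S (.pair (encList (List.ofFn fun i => (r i : ℤ)))
          (encList (List.ofFn fun j => (c j : ℤ)))) = (mainF S (lN r, lN c)).map enc :=
    hp S (lN r, lN c)
  rw [hx, PMF.toOuterMeasure_map_apply]
  refine h.trans (MeasureTheory.OuterMeasure.mono _ ?_)
  rintro y ⟨h1, h2⟩
  exact ⟨y, rfl, h1, h2⟩

/-- **A uniform fully polynomial randomized approximation scheme for the number of contingency tables, with fair coins and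
finite precision words.** -/
theorem Vale.Agent.Results.P328.AAAA_bit.result :
    ∃ (p : Prog) (e : ℕ), ∀ (m n : ℕ) (r : Fin m → ℕ) (c : Fin n → ℕ) (a b : ℕ),
      0 < m → 0 < n → ∑ i, r i = ∑ j, c j → 0 < a → 0 < b →
      let L := m + n + ∑ i, Nat.size (r i) + ∑ j, Nat.size (c j) + a + Nat.size b + 2
      time p (L ^ 100) ≤ L ^ e ∧
      ENNReal.ofReal (1 - 1 / (b : ℝ)) ≤
        (sem p (L ^ 100) (.pair (encList (List.ofFn fun i => (r i : ℤ)))
          (encList (List.ofFn fun j => (c j : ℤ))))).toOuterMeasure
          {v | ∃ y : ℤ, v = .num y ∧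
            (1 - 1 / (a : ℝ)) * ((tabs r c).card : ℝ) ≤ y ∧
            (y : ℝ) ≤ (1 + 1 / (a : ℝ)) * ((tabs r c).card : ℝ)} := by
  obtain ⟨p, hp⟩ := mainF_rep
  obtain ⟨e, he⟩ := time_poly p
  refine ⟨p, 100 * e, fun m n r c a b hm hn hsum ha hb => ?_⟩
  intro L
  have hL2 : 2 ≤ L := by
    have : L = m + n + ∑ i, Nat.size (r i) + ∑ j, Nat.size (c j) + a + Nat.size b + 2 := rfl
    omega
  have hS2 : 2 ≤ L ^ 100 := hL2.trans (Nat.le_self_pow (by norm_num) L)
  refine ⟨?_, ?_⟩
  · rw [pow_mul]
    exact he _ hS2
  · exact Vale.Agent.Results.P328.AAAA_bit.aux hp r c a b _ hm hn hsum ha hb rfl
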