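import Vale.Agent.Lib.P328.Ram.Main

/-!
# A fully polynomial randomized approximation scheme for contingency tables, as one program of a random access machine

The machine is in `Vale/Agent/Lib/P328/Ram/Machine.lean`: registers and memory cells hold integers, the instructions are
`const mov load store add sub mul div cmov jpos jmp coin halt`, `coin` writes a fair bit, and the cost of a run is the
logarithmic cost: an instruction costs one plus the bit lengths of its operands, a multiplication or a division the square of that.

There is one program `P` and one exponent `e`. For all margins and all positive integers `a`, `b`, with `L` the input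
length (rows, columns, bits of the margins, `a`, bits of `b`): the machine is started with the input in its first memory
cells (`initConf`, all registers and all other cells zero). After `L ^ e` steps it has halted and its cost is at most `L ^ e`,
for all outcomes of the coins; and with probability at least `1 - 1 / b` register `0` holds an integer in
`(1 ± 1 / a) * |tabs r c|`.
-/

open Finset Vale.Agent.Lib.P328.Cap Vale.Agent.Lib.P328.Ram

/-- **A uniform fully polynomial randomized approximation scheme for the number of contingency tables, as one program of a
random access machine with logarithmic cost and fair coins.** -/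
theorem Vale.Agent.Results.P328.AAAA_ram.result :
    ∃ (P : List Instr) (e : ℕ), ∀ (m n : ℕ) (r : Fin m → ℕ) (c : Fin n → ℕ) (a b : ℕ),
      0 < m → 0 < n → ∑ i, r i = ∑ j, c j → 0 < a → 0 < b →
      let L := m + n + ∑ i, Nat.size (r i) + ∑ j, Nat.size (c j) + a + Nat.size b + 2
      (∀ c' ∈ (run P (L ^ e) (initConf r c a b)).support, Halted P c' ∧ c'.cost ≤ L ^ e) ∧
      ENNReal.ofReal (1 - 1 / (b : ℝ)) ≤
        (run P (L ^ e) (initConf r c a b)).toOuterMeasure
          {c' | (1 - 1 / (a : ℝ)) * ((tabs r c).card : ℝ) ≤ (c'.reg 0 : ℝ) ∧
            (c'.reg 0 : ℝ) ≤ (1 + 1 / (a : ℝ)) * ((tabs r c).card : ℝ)} :=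
  ram_fpras
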