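import Vale.Agent.Lib.P328.RAM.TopGood

/-!
# A fully polynomial randomized approximation scheme for contingency tables, all margins

The computation model is the inductive predicate `Cost`: real arithmetic circuits with gates `1, +, -, *, x⁻¹, √, exp,
log, if a ≤ b then u else v`, and free wires. The input of a circuit: the margins as real wires, uniform random
reals on further wires. There is no floor gate, no gate for factorials or binomial coefficients, no oracle.

For all `m ≥ 1`, `n`, `K`, `ε, δ ∈ (0, 1]` there is one circuit `F` of size polynomial in `m, n, K, 1 / ε, log (1 / δ)`, which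
for all margins with the same total `< 2 ^ K` returns, with probability at least `1 - δ`, a number in
`(1 ± ε) * |tabs r c|`. The exponent `e` is absolute.
-/

open Finset MeasureTheory Vale.Agent.Lib.P328.Cap Vale.Agent.Lib.P328.RAM

/-- **Approximate counting of contingency tables in polynomial time, for all margins, real number model.** -/
theorem Vale.Agent.Results.P328.AAA_circuit.result :
    ∃ e : ℕ, ∀ (m n K : ℕ) (ε δ : ℝ), 0 < m → 0 < ε → ε ≤ 1 → 0 < δ → δ ≤ 1 →
      ∃ (Ω : Type) (_ : Fintype Ω) (s : ℕ) (F : (((Fin m ⊕ Fin n) ⊕ Ω) → ℝ) → Unit → ℝ),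
        Cost F s
        ∧ (s : ℝ) ≤ (((m : ℝ) + n + 2) * ((K : ℝ) + 2) * (1 / ε) * (Real.log (1 / δ) + 2)) ^ e
        ∧ ∀ (r : Fin m → ℕ) (c : Fin n → ℕ), ∑ i, r i = ∑ j, c j → ∑ i, r i < 2 ^ K →
          ENNReal.ofReal (1 - δ) ≤ volume {ω : Ω → ℝ | (∀ a, 0 ≤ ω a ∧ ω a ≤ 1) ∧
            (1 - ε) * ((tabs r c).card : ℝ)
                ≤ F (Sum.elim (Sum.elim (fun i => (r i : ℝ)) fun j => (c j : ℝ)) ω) ()
            ∧ F (Sum.elim (Sum.elim (fun i => (r i : ℝ)) fun j => (c j : ℝ)) ω) ()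
                ≤ (1 + ε) * ((tabs r c).card : ℝ)} := by
  obtain ⟨e0, hcost⟩ := finalF_cost
  refine ⟨82 * e0, fun m n K ε δ hm hε0 hε1 hδ0 hδ1 => ?_⟩
  set N : ℕ := ⌈1 / ε⌉₊ with hNdef
  have hN : 0 < N := Nat.ceil_pos.2 (by positivity)
  have hNε : 1 / (N : ℝ) ≤ ε := by
    have h1 : 1 / ε ≤ (N : ℝ) := Nat.le_ceil _
    have h2 : (0 : ℝ) < N := by exact_mod_cast hN
    rw [div_le_iff₀ h2]
    rw [div_le_iff₀ hε0] at h1
    linarith
  set X := sizeX m n N K δ with hX
  have hX2 : 2 ≤ X := by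
    rw [hX]
    unfold sizeX
    omega
  refine ⟨AllW m n N δ, inferInstance, X ^ e0, _, hcost hm hN hδ0 hδ1 hX2, ?_, ?_⟩
  · have h1 : (X : ℝ) ≤ _ := sizeX_le (m := m) (n := n) (K := K) hm hε0 hε1 hδ0 hδ1
    push_cast
    rw [pow_mul]
    exact pow_le_pow_left₀ (Nat.cast_nonneg _) h1 _
  · intro r c hsum hK
    have hgood := finalF_good (N := N) hm hN hδ0 hδ1 hsum hK
    have hcard : (0 : ℝ) ≤ ((tabs r c).card : ℝ) := Nat.cast_nonneg _
    have hmono := hgood.trans (Pr_mono (E' := fun ω : AllW m n N δ → ℝ =>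
      (1 - ε) * ((tabs r c).card : ℝ)
          ≤ finalF m n N K δ hm (fun i => (r i : ℝ)) (fun j => (c j : ℝ)) ω
        ∧ finalF m n N K δ hm (fun i => (r i : ℝ)) (fun j => (c j : ℝ)) ω
          ≤ (1 + ε) * ((tabs r c).card : ℝ)) fun ω _ hE => ?_)
    · refine ENNReal.ofReal_le_of_le_toReal ?_
      exact hmono
    · refine ⟨le_trans ?_ hE.1, le_trans hE.2 ?_⟩
      · exact mul_le_mul_of_nonneg_right (by linarith) hcard
      · exact mul_le_mul_of_nonneg_right (by linarith) hcard
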