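import Vale.Agent.Lib.P328.Samp.Final

/-!
# An explicit randomized approximation scheme for the number of contingency tables, all margins

Margins `r`, `c` with `m` rows, the same total, no other condition. `cl` is the sorted list of the
positive columns, `k` its length. All parameters are explicit powers of
`W = ⌈B⌉`, `B = 10 ^ 8 * (k + 1) * (m + 1) * ρ / ε`, `ρ = 10 ^ 18 * (m + 1) ^ 16 * (k + 1) ^ 36`.
The margins enter the counts only through `log (Σ r + 2)`.

The algorithm: first stage: simulated annealing on the grid of `(4 W ^ 56 + 1) ^ (k m)` small cubes,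
`W ^ 34` levels, `annealS W (δ / 2)` independent runs of `W ^ 150` steps of a Metropolis chain at each
level, gives `annealEst` (the mixture over `ωA` with the law `annealLaw`). Second stage: `runsOf`
independent runs of `stepsOf` steps of a walk on the tree of partial column fillings, with the kernel
`walkQ`, return the fraction of leaves over root. The estimate is the product.

All the steps consist of real arithmetic, comparisons and `exp`, `log`, `sqrt`, the values of
binomial coefficients and factorials, draws of uniform reals and draws from binomial laws: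
the ellipsoid method with `ellIters` steps (`betaHat`), the minimum in `psiHat` over `8 W ^ 57 + 1`
values, and so on. Nothing is an oracle.
-/

open Finset MeasureTheory Vale.Agent.Lib.P328.Cap Vale.Agent.Lib.P328.Fpras Vale.Agent.Lib.P328.Samp

/-- **An explicit randomized approximation scheme for contingency tables with arbitrary margins.**
With probability at least `1 - δ` over the first stage (law `annealLaw`) and the second stage
(`runsOf` runs of `stepsOf` steps of the kernel `walkQ` from the root), the estimate is in
`(1 ± ε) |tabs r c|`. -/
theorem Vale.Agent.Results.P328.AAA_explicit.result {m n : ℕ} (hm : 0 < m) (r : Fin m → ℕ)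
    (c : Fin n → ℕ) (hsum : ∑ i, r i = ∑ j, c j) (hk : 0 < (sortedCols c).length) {ε δ : ℝ}
    (hε0 : 0 < ε) (hε1 : ε ≤ 1) (hδ0 : 0 < δ) (hδ1 : δ ≤ 1) :
    let cl := sortedCols c
    let k := cl.length
    let W := masterW m k ε
    let P := parOf m k (rhoP m k) ε
    let V := nodes (kids r cl) k
    1 - δ ≤ ∑ ωA, annealLaw W (∑ i, r i) (iMax hm r) (jMax hk cl.get) r cl.get (annealS W (δ / 2)) ωA
      * runProb V (lawT V (walkQ W hm P r cl) (stepsOf m k (rhoP m k) ε))
          (runsOf m k (rhoP m k) ε (δ / 2)) fun ω =>
        (1 - ε) * ((tabs r c).card : ℝ)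
            ≤ annealEst W (∑ i, r i) (iMax hm r) (jMax hk cl.get) r cl.get (annealS W (δ / 2)) ωA
              * (countIn (lvl (kids r cl) k) ω : ℝ) / (countIn {[]} ω : ℝ)
          ∧ annealEst W (∑ i, r i) (iMax hm r) (jMax hk cl.get) r cl.get (annealS W (δ / 2)) ωA
              * (countIn (lvl (kids r cl) k) ω : ℝ) / (countIn {[]} ω : ℝ)
            ≤ (1 + ε) * ((tabs r c).card : ℝ) :=
  fpras_explicit hm r c hsum hk hε0 hε1 hδ0 hδ1
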