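import Vale.Agent.Lib.P328.Fpras.Main

/-!
# A randomized approximation scheme for the number of contingency tables, for all margins

Margins `r`, `c` of `m` rows and `n` columns with the same total, no other condition. Let `L` be the
sorted list of the positive columns. The nodes of a tree are the lists of the columns filled so far.
The algorithm runs `R` independent copies of `T` steps of a lazy walk on this tree, started at the
root, and returns `Ahat * (runs ending at a leaf) / (runs ending at the root)`, where `Ahat` is an
approximation of the integral `Aval r L` of a log-concave function. With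
`B = 10 ^ 8 * (n + 1) * (m + 1) * ρ / ε` and `ρ = 10 ^ 18 * (m + 1) ^ 16 * (n + 1) ^ 36`, where
`n` is the length of `L` here: `T = ⌈B ^ 20⌉`, `R = ⌈B ^ 2 * log (4 / δ)⌉`. Neither depends on the
size of the margins.

One step of the walk at the node with next column `c0` and remaining columns `l`: with probability
one eighth try to move to the parent, with a probability that is a closed form, and with probability
one eighth make a trial: draw a positive matrix `t` from the law `wLaw`, with density proportional to
`exp (- ∑ t) * capa t`, log-concave; compute an approximate minimiser `b` of the function `Phi`;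
draw all rows but one of the next column from binomial laws; the last row is what the column sum
leaves; toss two coins with closed form probabilities. The step need only be approximated: any
kernel `Q` within `B ^ (-22)` of the transition matrix, at each state, has the same guarantee.
-/

open Finset MeasureTheory Vale.Agent.Lib.P328.Cap Vale.Agent.Lib.P328.Fpras
open scoped ENNReal

/-- **A randomized approximation scheme for contingency tables with arbitrary margins.**

First line: measurable approximate minimisers exist. Second line: the capacity is log-concave.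
Then, for all margins with the same total, all `ε, δ ∈ (0, 1]` and all approximate minimisers `sol`,
with `L` the sorted positive columns, `V` the nodes, `W` the transition matrix:
(a) at every inner node the matrix law is a probability measure and all coins have a probability at
most one, so that a trial is a random experiment;
(b) `W` is a Markov kernel on `V`;
(c) for all `Ahat` within the factor `1 ± ε / 4` of `Aval r L` and every Markov kernel `Q` on `V`
within `B ^ (-22)` of `W` at every state in the sum of absolute values, with probability at
least `1 - δ` over `R` independent runs of `T` steps of `Q` from the root,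
`(1 - ε) * |tabs r c| ≤ Ahat * (runs at a leaf) / (runs at the root) ≤ (1 + ε) * |tabs r c|`. -/
theorem Vale.Agent.Results.P328.AAA_fpras.result :
    (∀ m : ℕ, ∃ sol : Sol m, IsSolver sol) ∧
    (∀ {m n : ℕ} (r : Fin m → ℕ) (c : Fin n → ℕ) (t t' : Fin n → Fin m → ℝ),
      (∀ j i, 0 < t j i) → (∀ j i, 0 < t' j i) → ∀ a : ℝ, 0 ≤ a → a ≤ 1 →
        capa r c t ^ a * capa r c t' ^ (1 - a) ≤ capa r c fun j i => a * t j i + (1 - a) * t' j i) ∧
    ∀ {m n : ℕ} (r : Fin m → ℕ) (c : Fin n → ℕ), 0 < m → ∑ i, r i = ∑ j, c j →
      ∀ ε δ : ℝ, 0 < ε → ε ≤ 1 → 0 < δ → δ ≤ 1 → ∀ sol : Sol m, IsSolver sol →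
        let L : List ℕ := sortedCols c
        let V : Finset (List (Fin m → ℕ)) := nodes (kids r L) L.length
        let ρ : ℝ := rhoP m L.length
        let P : Par := parOf m L.length ρ ε
        let W := algWalk P sol r L
        (∀ v ∈ V, ∀ (c0 : ℕ) (l : List ℕ), L.drop v.length = c0 :: l →
          IsProbabilityMeasure (wLaw (res r v) (Fin.cons c0 l.get : Fin (l.length + 1) → ℕ))
          ∧ ∀ t : Fin (l.length + 1) → Fin m → ℝ, (∀ j i, 0 < t j i) → ∀ i : Fin m,
            P.V0 m l.length c0 ≤ rowV (res r v) t (sol (res r v) c0 l t) i →
              ∀ x ∈ lev (res r v) c0,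
                P.K m l.length c0 * bw (res r v i) (rowP t (sol (res r v) c0 l t) i) (x i) ≤ 1
                ∧ uval (res r v) l.get t x / (2 * (capa (res r v) (Fin.cons c0 l.get) t).toReal
                    * wt (res r v) (rowP t (sol (res r v) c0 l t)) x) ≤ 1)
        ∧ (∀ v ∈ V, (∀ w, 0 ≤ W v w) ∧ ∑ w ∈ V, W v w = 1)
        ∧ ∀ Ahat : ℝ, |Ahat - Aval r L.get| ≤ ε / 4 * Aval r L.get →
          ∀ Q : List (Fin m → ℕ) → List (Fin m → ℕ) → ℝ,
            (∀ v ∈ V, ∀ w, 0 ≤ Q v w) → (∀ v ∈ V, ∑ w ∈ V, Q v w = 1) →
            (∀ v ∈ V, ∑ w ∈ V, |Q v w - W v w| ≤ 1 / Bpar m L.length ρ ε ^ 22) →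
            1 - δ ≤ runProb V (lawT V Q (stepsOf m L.length ρ ε)) (runsOf m L.length ρ ε δ)
              fun ω =>
                (1 - ε) * ((tabs r c).card : ℝ)
                    ≤ Ahat * (countIn (lvl (kids r L) L.length) ω : ℝ) / (countIn {[]} ω : ℝ)
                  ∧ Ahat * (countIn (lvl (kids r L) L.length) ω : ℝ) / (countIn {[]} ω : ℝ)
                    ≤ (1 + ε) * ((tabs r c).card : ℝ) :=
  ⟨fun _ => exists_solver, fun r c t t' ht ht' a ha ha1 => capa_logconc r c t t' ht ht' a ha ha1,
    fun r c hm hsum ε δ hε0 hε1 hδ0 hδ1 sol hsol =>
      fpras_main r c hm hsum ε δ hε0 hε1 hδ0 hδ1 sol hsol⟩
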